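import Mathlib

set_option linter.unusedSectionVars false

namespace Vale.Agent.P194

open MonoidAlgebra
open scoped Classical

variable {K G : Type*} [CommRing K] [Group G]

/-- The sum of the coefficients of `x` over the left coset `g L`. -/
noncomputable def lam (L : Subgroup G) (g : G) : MonoidAlgebra K G →ₗ[K] K :=
  (Finsupp.linearCombination K (fun y : G => if g⁻¹ * y ∈ L then (1 : K) else 0)) ∘ₗ
    (MonoidAlgebra.coeffLinearEquiv K).toLinearMap

theorem lam_single (L : Subgroup G) (g y : G) (a : K) :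
    lam L g (single y a) = if g⁻¹ * y ∈ L then a else 0 := by
  simp [lam]

theorem lam_eq_sum (L : Subgroup G) (g : G) (x : MonoidAlgebra K G) :
    lam L g x = ∑ y ∈ x.coeff.support, if g⁻¹ * y ∈ L then x.coeff y else 0 := by
  simp [lam, Finsupp.linearCombination_apply, Finsupp.sum]

/-- All sums over left cosets of `L` vanish. -/
def Van (L : Subgroup G) (x : MonoidAlgebra K G) : Prop := ∀ g, lam L g x = 0

theorem lam_single_mul (L : Subgroup G) (g u : G) (a : K) (x : MonoidAlgebra K G) :
    lam L g (single u a * x) = a * lam L (u⁻¹ * g) x := by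
  induction x using MonoidAlgebra.induction_linear with
  | zero => simp
  | add x y hx hy => rw [mul_add, map_add, map_add, hx, hy, mul_add]
  | single y b =>
    rw [single_mul_single, lam_single, lam_single]
    have : g⁻¹ * (u * y) = (u⁻¹ * g)⁻¹ * y := by group
    rw [this]
    split_ifs <;> simp

theorem Van.mul_left {L : Subgroup G} {x : MonoidAlgebra K G} (hx : Van L x)
    (y : MonoidAlgebra K G) : Van L (y * x) := by
  intro g
  induction y using MonoidAlgebra.induction_linear with
  | zero => simp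
  | add y z hy hz => rw [add_mul, map_add, hy, hz, add_zero]
  | single u a => rw [lam_single_mul, hx, mul_zero]

theorem Van.add {L : Subgroup G} {x y : MonoidAlgebra K G} (hx : Van L x) (hy : Van L y) :
    Van L (x + y) := fun g => by rw [map_add, hx, hy, add_zero]

theorem Van.sub {L : Subgroup G} {x y : MonoidAlgebra K G} (hx : Van L x) (hy : Van L y) :
    Van L (x - y) := fun g => by rw [map_sub, hx, hy, sub_zero]

theorem Van.zero (L : Subgroup G) : Van L (0 : MonoidAlgebra K G) := fun g => by simp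

theorem Van.sum {L : Subgroup G} {ι : Type*} (s : Finset ι) (f : ι → MonoidAlgebra K G)
    (h : ∀ i ∈ s, Van L (f i)) : Van L (∑ i ∈ s, f i) := fun g => by
  rw [map_sum]
  exact Finset.sum_eq_zero fun i hi => h i hi g

/-- right multiplication by an element normalizing `L` -/
theorem lam_mul_single (L : Subgroup G) (g c : G) (hc : ∀ z, c * z * c⁻¹ ∈ L ↔ z ∈ L)
    (x : MonoidAlgebra K G) :
    lam L g (x * single c 1) = lam L (g * c⁻¹) x := by
  induction x using MonoidAlgebra.induction_linear with
  | zero => simp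
  | add x y hx hy => rw [add_mul, map_add, map_add, hx, hy]
  | single y b =>
    rw [single_mul_single, lam_single, lam_single, mul_one]
    have : (g * c⁻¹)⁻¹ * y = c * (g⁻¹ * (y * c)) * c⁻¹ := by group
    rw [this, hc]

theorem lam_mul_right_mem (L : Subgroup G) (g h : G) (hh : h ∈ L) (x : MonoidAlgebra K G) :
    lam L (g * h) x = lam L g x := by
  rw [lam_eq_sum, lam_eq_sum]
  refine Finset.sum_congr rfl fun y _ => ?_
  have : (g * h)⁻¹ * y ∈ L ↔ g⁻¹ * y ∈ L := by
    have e : (g * h)⁻¹ * y = h⁻¹ * (g⁻¹ * y) := by group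
    rw [e]
    exact L.mul_mem_cancel_left (L.inv_mem hh)
  simp only [this]

theorem mapDomain_mk_apply (L : Subgroup G) (g : G) (x : MonoidAlgebra K G) :
    (Finsupp.mapDomain (QuotientGroup.mk : G → G ⧸ L) x.coeff) (QuotientGroup.mk g) = lam L g x := by
  induction x using MonoidAlgebra.induction_linear with
  | zero => simp
  | add x y hx hy => rw [coeff_add, Finsupp.mapDomain_add, Finsupp.add_apply, hx, hy, map_add]
  | single y b =>
    rw [coeff_single, Finsupp.mapDomain_single, lam_single, Finsupp.single_apply]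
    have : ((QuotientGroup.mk y : G ⧸ L) = QuotientGroup.mk g) ↔ g⁻¹ * y ∈ L := by
      rw [eq_comm, QuotientGroup.eq]
    simp only [this]

theorem van_iff_mapDomain (L : Subgroup G) (x : MonoidAlgebra K G) :
    Van L x ↔ Finsupp.mapDomain (QuotientGroup.mk : G → G ⧸ L) x.coeff = 0 := by
  constructor
  · intro h
    ext q
    obtain ⟨g, rfl⟩ := QuotientGroup.mk_surjective q
    rw [mapDomain_mk_apply, h g]
    rfl
  · intro h g
    rw [← mapDomain_mk_apply, h]
    rfl

theorem Van.mono {H L : Subgroup G} (hHL : H ≤ L) {x : MonoidAlgebra K G} (hx : Van H x) :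
    Van L x := by
  rw [van_iff_mapDomain] at hx ⊢
  let κ : G ⧸ H → G ⧸ L := Quotient.map' id (by
    intro a b hab
    rw [QuotientGroup.leftRel_apply] at hab ⊢
    exact hHL hab)
  have : (QuotientGroup.mk : G → G ⧸ L) = κ ∘ (QuotientGroup.mk : G → G ⧸ H) := by
    funext g
    rfl
  rw [this, Finsupp.mapDomain_comp, hx, Finsupp.mapDomain_zero]

theorem lam_congr {H L : Subgroup G} {g g' : G} {x : MonoidAlgebra K G}
    (h : ∀ y, x.coeff y ≠ 0 → (g⁻¹ * y ∈ H ↔ g'⁻¹ * y ∈ L)) : lam H g x = lam L g' x := by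
  rw [lam_eq_sum, lam_eq_sum]
  refine Finset.sum_congr rfl fun y hy => ?_
  rw [Finsupp.mem_support_iff] at hy
  simp only [h y hy]

theorem lam_eq_zero_of {H : Subgroup G} {g : G} {x : MonoidAlgebra K G}
    (h : ∀ y, x.coeff y ≠ 0 → g⁻¹ * y ∉ H) : lam H g x = 0 := by
  rw [lam_eq_sum]
  refine Finset.sum_eq_zero fun y hy => ?_
  rw [Finsupp.mem_support_iff] at hy
  simp only [h y hy, if_false]

variable {I J : Type*} [Fintype I] [Fintype J]

/-- The union of the left cosets `x L`, `x ∈ X`. -/
def SX (X : Finset G) (L : Subgroup G) : Set G := {y | ∃ x ∈ X, x⁻¹ * y ∈ L}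

def SuppV (S : Set G) (v : J → MonoidAlgebra K G) : Prop := ∀ j y, y ∉ S → (v j).coeff y = 0

def VanV (L : Subgroup G) (v : J → MonoidAlgebra K G) : Prop := ∀ j, Van L (v j)

def PP (A : Matrix I J (MonoidAlgebra K G)) (L : Subgroup G) (S : Set G) : Prop :=
  ∀ v : J → MonoidAlgebra K G, SuppV S v → VanV L (A.mulVec v) → VanV L v

theorem SX_mono (X : Finset G) {H L : Subgroup G} (hHL : H ≤ L) : SX X H ⊆ SX X L := by
  rintro y ⟨x, hx, hy⟩
  exact ⟨x, hx, hHL hy⟩

theorem SuppV.mono {S T : Set G} (hST : S ⊆ T) {v : J → MonoidAlgebra K G} (h : SuppV S v) :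
    SuppV T v := fun j y hy => h j y fun hy' => hy (hST hy')

theorem PP.mono_set {A : Matrix I J (MonoidAlgebra K G)} {L : Subgroup G} {S T : Set G}
    (hST : S ⊆ T) (h : PP A L T) : PP A L S := fun v hv hV => h v (hv.mono hST) hV

theorem PP_stepA (A : Matrix I J (MonoidAlgebra K G)) (X : Finset G) {H L : Subgroup G}
    (hHL : H ≤ L) (hX : ∀ x ∈ X, ∀ y ∈ X, x⁻¹ * y ∈ L → x⁻¹ * y ∈ H)
    (hP : PP A L (SX X L)) : PP A H (SX X H) := by
  intro v hS hV
  have h := hP v (hS.mono (SX_mono X hHL)) (fun i => (hV i).mono hHL)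
  intro j g
  have hmem : ∀ y, (v j).coeff y ≠ 0 → y ∈ SX X H := fun y hy => by
    by_contra hn
    exact hy (hS j y hn)
  by_cases hg : g ∈ SX X H
  · obtain ⟨x, hx, hxg⟩ := hg
    rw [lam_congr (L := L) (g' := g), h j g]
    intro y hy
    obtain ⟨x', hx', hx'y⟩ := hmem y hy
    refine ⟨fun hh => hHL hh, fun hL => ?_⟩
    have h1 : x⁻¹ * x' ∈ L := by
      have e : x⁻¹ * x' = (x⁻¹ * g) * (g⁻¹ * y) * (x'⁻¹ * y)⁻¹ := by group
      rw [e]
      exact L.mul_mem (L.mul_mem (hHL hxg) hL) (L.inv_mem (hHL hx'y))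
    have h2 := hX x hx x' hx' h1
    have e : g⁻¹ * y = (x⁻¹ * g)⁻¹ * (x⁻¹ * x') * (x'⁻¹ * y) := by group
    rw [e]
    exact H.mul_mem (H.mul_mem (H.inv_mem hxg) h2) hx'y
  · refine lam_eq_zero_of fun y hy hgy => hg ?_
    obtain ⟨x', hx', hx'y⟩ := hmem y hy
    refine ⟨x', hx', ?_⟩
    have e : x'⁻¹ * g = (x'⁻¹ * y) * (g⁻¹ * y)⁻¹ := by group
    rw [e]
    exact H.mul_mem hx'y (H.inv_mem hgy)

theorem base_case (X : Finset G) (L : Subgroup G) (hinj : ∀ x ∈ X, ∀ y ∈ X, x⁻¹ * y ∈ L → x = y)
    (r : J → MonoidAlgebra K G) (hr : ∀ j y, (r j).coeff y ≠ 0 → y ∈ X) (hV : VanV L r) :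
    r = 0 := by
  funext j
  ext y
  by_contra hne
  have hne' : (r j).coeff y ≠ 0 := hne
  have h := hV j y
  rw [lam_eq_sum, Finset.sum_eq_single y] at h
  · simp at h
    exact hne' h
  · intro y' hy' hyy'
    rw [Finsupp.mem_support_iff] at hy'
    rw [if_neg]
    intro hmem
    exact hyy' (hinj y (hr j y hne') y' (hr j y' hy') hmem).symm
  · intro hy
    rw [Finsupp.notMem_support_iff] at hy
    exact absurd hy hne'

section StepB

variable {p : ℕ} [Fact p.Prime]

/-- `H₁` is the kernel of the additive map `d` from `H` onto `ZMod p`, and `d c = 1`. -/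
structure IndexP (p : ℕ) (H H₁ : Subgroup G) (c : G) (d : G → ZMod p) : Prop where
  le : H₁ ≤ H
  cmem : c ∈ H
  mem_iff : ∀ h ∈ H, (h ∈ H₁ ↔ d h = 0)
  add : ∀ h ∈ H, ∀ h' ∈ H, d (h * h') = d h + d h'
  one : d c = 1

namespace IndexP

variable {H H₁ : Subgroup G} {c : G} {d : G → ZMod p}

theorem d_one (h : IndexP p H H₁ c d) : d 1 = 0 := by
  have := h.add 1 H.one_mem 1 H.one_mem
  rw [mul_one] at this
  exact left_eq_add.mp this

theorem d_inv (h : IndexP p H H₁ c d) (x : G) (hx : x ∈ H) : d x⁻¹ = - d x := by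
  have := h.add x hx x⁻¹ (H.inv_mem hx)
  rw [mul_inv_cancel, h.d_one] at this
  exact eq_neg_of_add_eq_zero_right this.symm

theorem d_pow (h : IndexP p H H₁ c d) (k : ℕ) : d (c ^ k) = k := by
  induction k with
  | zero => simp [h.d_one]
  | succ k ih =>
    rw [pow_succ, h.add _ (H.pow_mem h.cmem k) _ h.cmem, ih, h.one]
    push_cast
    ring

theorem d_mem (h : IndexP p H H₁ c d) (z : G) (hz : z ∈ H₁) : d z = 0 :=
  (h.mem_iff z (h.le hz)).1 hz

theorem conj_mem_iff (h : IndexP p H H₁ c d) (c' : G) (hc' : c' ∈ H) (z : G) :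
    c' * z * c'⁻¹ ∈ H₁ ↔ z ∈ H₁ := by
  constructor
  · intro hz
    have hzH : z ∈ H := by
      have e : z = c'⁻¹ * (c' * z * c'⁻¹) * c' := by group
      rw [e]
      exact H.mul_mem (H.mul_mem (H.inv_mem hc') (h.le hz)) hc'
    rw [h.mem_iff z hzH]
    have h1 := h.d_mem _ hz
    rw [h.add _ (H.mul_mem hc' hzH) _ (H.inv_mem hc'), h.add _ hc' _ hzH, h.d_inv _ hc'] at h1
    linear_combination h1
  · intro hz
    have hzH := h.le hz
    rw [h.mem_iff _ (H.mul_mem (H.mul_mem hc' hzH) (H.inv_mem hc')),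
      h.add _ (H.mul_mem hc' hzH) _ (H.inv_mem hc'), h.add _ hc' _ hzH, h.d_inv _ hc',
      h.d_mem z hz]
    ring

theorem lam_eq_sum_lam (h : IndexP p H H₁ c d) (g : G) (x : MonoidAlgebra K G) :
    lam H g x = ∑ z : ZMod p, lam H₁ (g * c ^ z.val) x := by
  induction x using MonoidAlgebra.induction_linear with
  | zero => simp
  | add x y hx hy => simp only [map_add, hx, hy, Finset.sum_add_distrib]
  | single y a =>
    simp only [lam_single]
    have e : ∀ z : ZMod p, (g * c ^ z.val)⁻¹ * y = (c ^ z.val)⁻¹ * (g⁻¹ * y) := by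
      intro z; group
    by_cases hy : g⁻¹ * y ∈ H
    · rw [if_pos hy]
      have key : ∀ z : ZMod p, ((g * c ^ z.val)⁻¹ * y ∈ H₁ ↔ z = d (g⁻¹ * y)) := by
        intro z
        have hcz : (c ^ z.val)⁻¹ ∈ H := H.inv_mem (H.pow_mem h.cmem _)
        rw [e, h.mem_iff _ (H.mul_mem hcz hy), h.add _ hcz _ hy,
          h.d_inv _ (H.pow_mem h.cmem _), h.d_pow, ZMod.natCast_zmod_val]
        constructor
        · intro hh; linear_combination -hh
        · intro hh; rw [hh]; ring
      simp only [key]
      rw [Finset.sum_ite_eq']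
      simp
    · rw [if_neg hy]
      symm
      refine Finset.sum_eq_zero fun z _ => ?_
      rw [if_neg]
      intro hmem
      apply hy
      have h2 := h.le hmem
      rw [e] at h2
      have e2 : g⁻¹ * y = c ^ z.val * ((c ^ z.val)⁻¹ * (g⁻¹ * y)) := by group
      rw [e2]
      exact H.mul_mem (H.pow_mem h.cmem _) h2

theorem exists_level (h : IndexP p H H₁ c d) :
    ∃ l : G → ZMod p, ∀ g, ∀ x ∈ H, l (g * x) = l g + d x := by
  refine ⟨fun g => d ((Quotient.out (QuotientGroup.mk g : G ⧸ H))⁻¹ * g), ?_⟩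
  intro g x hx
  have h1 : (QuotientGroup.mk (g * x) : G ⧸ H) = QuotientGroup.mk g :=
    QuotientGroup.mk_mul_of_mem g hx
  have h2 : (Quotient.out (QuotientGroup.mk g : G ⧸ H))⁻¹ * g ∈ H := by
    rw [← QuotientGroup.eq]
    exact Quotient.out_eq _
  simp only [h1]
  rw [← mul_assoc, h.add _ h2 _ hx]

end IndexP

/-- keep only the terms of level zero -/
noncomputable def filt (l : G → ZMod p) : MonoidAlgebra K G →ₗ[K] MonoidAlgebra K G :=
  (Finsupp.lsum K (fun y : G => if l y = 0 then MonoidAlgebra.lsingle (R := K) (S := K) y else 0)) ∘ₗ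
    (MonoidAlgebra.coeffLinearEquiv K).toLinearMap

theorem filt_single (l : G → ZMod p) (y : G) (a : K) :
    filt l (single y a) = if l y = 0 then single y a else 0 := by
  simp only [filt, LinearMap.comp_apply, LinearEquiv.coe_coe]
  have : (MonoidAlgebra.coeffLinearEquiv K) (single y a) = Finsupp.single y a := rfl
  rw [this, Finsupp.lsum_single]
  split_ifs <;> simp

theorem coeff_filt (l : G → ZMod p) (x : MonoidAlgebra K G) (y : G) :
    (filt l x).coeff y = if l y = 0 then x.coeff y else 0 := by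
  induction x using MonoidAlgebra.induction_linear with
  | zero => simp
  | add x z hx hz =>
    rw [map_add, coeff_add, Finsupp.add_apply, hx, hz, coeff_add, Finsupp.add_apply]
    split_ifs <;> simp
  | single u a =>
    rw [filt_single]
    by_cases hu : l u = 0
    · rw [if_pos hu, coeff_single, Finsupp.single_apply]
      by_cases huy : u = y
      · subst huy; simp [hu]
      · simp [huy]
    · rw [if_neg hu, coeff_single, Finsupp.single_apply]
      by_cases huy : u = y
      · subst huy; simp [hu]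
      · simp [huy]

theorem lam_filt {H H₁ : Subgroup G} {c : G} {d : G → ZMod p} (h : IndexP p H H₁ c d)
    (l : G → ZMod p) (hl : ∀ g, ∀ x ∈ H, l (g * x) = l g + d x) (g : G) (x : MonoidAlgebra K G) :
    lam H₁ g (filt l x) = if l g = 0 then lam H₁ g x else 0 := by
  induction x using MonoidAlgebra.induction_linear with
  | zero => simp
  | add x z hx hz =>
    rw [map_add, map_add, hx, hz, map_add]
    split_ifs <;> simp
  | single y a =>
    rw [filt_single]
    by_cases hy : g⁻¹ * y ∈ H₁
    · have e : l y = l g := by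
        have e1 : y = g * (g⁻¹ * y) := by group
        rw [e1, hl g _ (h.le hy), h.d_mem _ hy, add_zero]
      rw [e]
      split_ifs <;> simp
    · rw [lam_single, if_neg hy]
      split_ifs <;> simp [lam_single, hy]

theorem mulVec_mul_right (A : Matrix I J (MonoidAlgebra K G)) (v : J → MonoidAlgebra K G)
    (y : MonoidAlgebra K G) :
    A.mulVec (fun j => v j * y) = fun i => A.mulVec v i * y := by
  funext i
  simp only [Matrix.mulVec, dotProduct, Finset.sum_mul, mul_assoc]

theorem VanV.mulVec {L : Subgroup G} {v : J → MonoidAlgebra K G} (hv : VanV L v)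
    (A : Matrix I J (MonoidAlgebra K G)) : VanV L (A.mulVec v) := by
  intro i
  simp only [Matrix.mulVec, dotProduct]
  exact Van.sum _ _ fun j _ => (hv j).mul_left _

theorem claim1 {H H₁ : Subgroup G} {c : G} {d : G → ZMod p} (h : IndexP p H H₁ c d)
    (A : Matrix I J (MonoidAlgebra K G)) (S : Set G) (hP : PP A H S)
    (u : J → MonoidAlgebra K G) (hS : SuppV S u) (hT : VanV H₁ (A.mulVec u))
    (hinv : VanV H₁ (fun j => u j * (single c 1 - 1))) : VanV H₁ u := by
  obtain ⟨l, hl⟩ := h.exists_level
  have inv1 : ∀ j g, lam H₁ (g * c) (u j) = lam H₁ g (u j) := by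
    intro j g
    have h1 : lam H₁ (g * c) (u j * (single c 1 - 1)) = 0 := hinv j (g * c)
    rw [mul_sub, mul_one, map_sub, lam_mul_single H₁ _ c (h.conj_mem_iff c h.cmem),
      mul_inv_cancel_right, sub_eq_zero] at h1
    exact h1.symm
  have invk : ∀ j g (k : ℕ), lam H₁ (g * c ^ k) (u j) = lam H₁ g (u j) := by
    intro j g k
    induction k with
    | zero => simp
    | succ k ih => rw [pow_succ, ← mul_assoc, inv1, ih]
  have lev : ∀ g (k : ℕ), l (g * c ^ k) = l g + k := by
    intro g k
    rw [hl g _ (H.pow_mem h.cmem k), h.d_pow]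
  have key2 : ∀ j g, lam H g (filt l (u j)) = lam H₁ g (u j) := by
    intro j g
    rw [h.lam_eq_sum_lam]
    simp only [lam_filt h l hl, invk, lev, ZMod.natCast_zmod_val]
    have : ∀ z : ZMod p, (l g + z = 0 ↔ z = - l g) := by
      intro z
      constructor
      · intro hh; linear_combination hh
      · intro hh; rw [hh]; ring
    simp only [this]
    rw [Finset.sum_ite_eq']
    simp
  have key3 : ∀ (x : MonoidAlgebra K G) g,
      lam H₁ g (x * ∑ z : ZMod p, single (c ^ z.val)⁻¹ (1 : K)) = lam H g x := by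
    intro x g
    rw [Finset.mul_sum, map_sum, h.lam_eq_sum_lam]
    refine Finset.sum_congr rfl fun z _ => ?_
    rw [lam_mul_single H₁ _ _ (h.conj_mem_iff _ (H.inv_mem (H.pow_mem h.cmem _))), inv_inv]
  have hdiff : VanV H₁ (fun j => filt l (u j) * (∑ z : ZMod p, single (c ^ z.val)⁻¹ (1 : K)) - u j) := by
    intro j g
    rw [map_sub, key3, key2, sub_self]
  have hA := hdiff.mulVec A
  have hAeq : A.mulVec (fun j => filt l (u j) * (∑ z : ZMod p, single (c ^ z.val)⁻¹ (1 : K)) - u j)
      = fun i => A.mulVec (fun j => filt l (u j)) i * (∑ z : ZMod p, single (c ^ z.val)⁻¹ (1 : K))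
        - A.mulVec u i := by
    have : (fun j => filt l (u j) * (∑ z : ZMod p, single (c ^ z.val)⁻¹ (1 : K)) - u j)
        = (fun j => filt l (u j) * (∑ z : ZMod p, single (c ^ z.val)⁻¹ (1 : K))) - u := rfl
    rw [this, Matrix.mulVec_sub, mulVec_mul_right]
    rfl
  rw [hAeq] at hA
  have hV : VanV H (A.mulVec (fun j => filt l (u j))) := by
    intro i g
    rw [← key3]
    have h1 := hA i g
    rw [map_sub, hT i g, sub_zero] at h1
    exact h1
  have hS' : SuppV S (fun j => filt l (u j)) := by
    intro j y hy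
    rw [coeff_filt, hS j y hy]
    simp
  have hfin := hP _ hS' hV
  intro j g
  rw [← key2]
  exact hfin j g

theorem charP_monoidAlgebra [CharP K p] : CharP (MonoidAlgebra K G) p :=
  charP_of_injective_ringHom (f := (MonoidAlgebra.singleOneRingHom : K →+* MonoidAlgebra K G))
    MonoidAlgebra.single_right_injective p

theorem stepB [CharP K p] {H H₁ : Subgroup G} {c : G} {d : G → ZMod p} (h : IndexP p H H₁ c d)
    (A : Matrix I J (MonoidAlgebra K G)) (S : Set G) (hSc : ∀ y, y ∉ S → y * c⁻¹ ∉ S)
    (hP : PP A H S) : PP A H₁ S := by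
  intro v hS hV
  have hsupp : ∀ w : J → MonoidAlgebra K G, SuppV S w →
      SuppV S (fun j => w j * (single c 1 - 1)) := by
    intro w hw j y hy
    show (w j * (single c 1 - 1)).coeff y = 0
    rw [mul_sub, mul_one, coeff_sub, Finsupp.sub_apply, coeff_mul_single_apply, hw j y hy,
      hw j _ (hSc y hy)]
    simp
  have hvan : ∀ {T : Type _} (w : T → MonoidAlgebra K G), (∀ i, Van H₁ (w i)) →
      ∀ i, Van H₁ (w i * (single c 1 - 1)) := by
    intro T w hw i g
    rw [mul_sub, mul_one, map_sub, lam_mul_single H₁ _ c (h.conj_mem_iff c h.cmem), hw i, hw i,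
      sub_zero]
  have hk : ∀ k : ℕ, SuppV S (fun j => v j * (single c 1 - 1) ^ k) ∧
      VanV H₁ (A.mulVec (fun j => v j * (single c 1 - 1) ^ k)) := by
    intro k
    induction k with
    | zero => simpa using ⟨hS, hV⟩
    | succ k ih =>
      have e : (fun j => v j * (single c (1 : K) - 1) ^ (k + 1))
          = fun j => (v j * (single c 1 - 1) ^ k) * (single c 1 - 1) := by
        funext j
        rw [pow_succ, mul_assoc]
      rw [e]
      refine ⟨hsupp _ ih.1, ?_⟩
      rw [mulVec_mul_right]
      exact hvan _ ih.2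
  have hcp : c ^ p ∈ H₁ := by
    rw [h.mem_iff _ (H.pow_mem h.cmem p), h.d_pow]
    simp
  have hp : VanV H₁ (fun j => v j * (single c 1 - 1) ^ p) := by
    intro j g
    have : CharP (MonoidAlgebra K G) p := charP_monoidAlgebra
    have e : (single c (1 : K) - 1) ^ p = single (c ^ p) 1 - 1 := by
      rw [sub_pow_char_of_commute p (Commute.one_right _), single_pow, one_pow, one_pow]
    show lam H₁ g (v j * (single c 1 - 1) ^ p) = 0
    rw [e, mul_sub, mul_one, map_sub,
      lam_mul_single H₁ _ _ (h.conj_mem_iff _ (H.pow_mem h.cmem p)),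
      lam_mul_right_mem H₁ g _ (H₁.inv_mem hcp), sub_self]
  have hdown : ∀ k : ℕ, k ≤ p → VanV H₁ (fun j => v j * (single c 1 - 1) ^ (p - k)) := by
    intro k
    induction k with
    | zero => intro _; simpa using hp
    | succ k ih =>
      intro hkp
      have ih' := ih (Nat.le_of_succ_le hkp)
      have e1 : p - k = (p - (k + 1)) + 1 := by omega
      rw [e1] at ih'
      refine claim1 h A S hP _ (hk _).1 (hk _).2 ?_
      have e : (fun j => v j * (single c (1 : K) - 1) ^ (p - (k + 1) + 1))
          = fun j => (v j * (single c 1 - 1) ^ (p - (k + 1))) * (single c 1 - 1) := by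
        funext j
        rw [pow_succ, mul_assoc]
      rw [e] at ih'
      exact ih'
  have := hdown p le_rfl
  simpa using this

theorem exists_indexP (H : Subgroup G) (f : H →* Multiplicative (ZMod p))
    (hf : Function.Surjective f) : ∃ (H₁ : Subgroup G) (c : G) (d : G → ZMod p),
    IndexP p H H₁ c d := by
  obtain ⟨c, hc⟩ := hf (Multiplicative.ofAdd 1)
  refine ⟨f.ker.map H.subtype, c,
    fun g => if hg : g ∈ H then Multiplicative.toAdd (f ⟨g, hg⟩) else 0, ?_⟩
  refine ⟨Subgroup.map_subtype_le _, c.2, ?_, ?_, ?_⟩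
  · intro h hh
    simp only [dif_pos hh]
    constructor
    · rintro ⟨x, hx, rfl⟩
      have : f x = 1 := hx
      have e : (⟨H.subtype x, hh⟩ : H) = x := rfl
      rw [e, this]
      rfl
    · intro h0
      refine ⟨⟨h, hh⟩, ?_, rfl⟩
      show f ⟨h, hh⟩ = 1
      exact Multiplicative.toAdd.injective h0
  · intro h hh h' hh'
    simp only [dif_pos hh, dif_pos hh', dif_pos (H.mul_mem hh hh')]
    have e : (⟨h * h', H.mul_mem hh hh'⟩ : H) = ⟨h, hh⟩ * ⟨h', hh'⟩ := rfl
    rw [e, map_mul]
    rfl
  · simp only [dif_pos c.2]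
    have e : (⟨(c : G), c.2⟩ : H) = c := rfl
    rw [e, hc]
    rfl

/-- every nontrivial finitely generated subgroup of `N` maps onto `ZMod p` -/
def LocPInd (p : ℕ) (N : Subgroup G) : Prop :=
  ∀ H : Subgroup G, H ≤ N → H.FG → H ≠ ⊥ →
    ∃ f : H →* Multiplicative (ZMod p), Function.Surjective f

theorem core [CharP K p] (N : Subgroup G) (hN : LocPInd p N)
    (A : Matrix I J (MonoidAlgebra K G)) (r : J → MonoidAlgebra K G) (hr : A.mulVec r = 0)
    (hP : PP A N Set.univ) : r = 0 := by
  set X : Finset G := Finset.univ.biUnion (fun j => (r j).coeff.support) with hXdef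
  have hrX : ∀ j y, (r j).coeff y ≠ 0 → y ∈ X := by
    intro j y hy
    rw [hXdef, Finset.mem_biUnion]
    exact ⟨j, Finset.mem_univ j, Finsupp.mem_support_iff.mpr hy⟩
  have main : ∀ n : ℕ, ∀ L : Subgroup G, L ≤ N →
      X.card - (X.image (QuotientGroup.mk : G → G ⧸ L)).card ≤ n → PP A L (SX X L) → r = 0 := by
    intro n
    induction n with
    | zero =>
      intro L hLN hcard hPL
      have hle : (X.image (QuotientGroup.mk : G → G ⧸ L)).card ≤ X.card := Finset.card_image_le
      have heq : (X.image (QuotientGroup.mk : G → G ⧸ L)).card = X.card := by omega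
      have hinj := Finset.card_image_iff.mp heq
      refine base_case X L ?_ r hrX ?_
      · intro x hx y hy hxy
        exact hinj hx hy (QuotientGroup.eq.mpr hxy)
      · refine hPL r ?_ ?_
        · intro j y hy
          by_contra hne
          exact hy ⟨y, hrX j y hne, by simp⟩
        · rw [hr]
          intro i
          exact Van.zero L
    | succ n ih =>
      intro L hLN hcard hPL
      by_cases hinj : ∀ x ∈ X, ∀ y ∈ X, x⁻¹ * y ∈ L → x = y
      · refine base_case X L hinj r hrX ?_
        refine hPL r ?_ ?_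
        · intro j y hy
          by_contra hne
          exact hy ⟨y, hrX j y hne, by simp⟩
        · rw [hr]
          intro i
          exact Van.zero L
      · push Not at hinj
        obtain ⟨x₀, hx₀, y₀, hy₀, hxy₀, hne₀⟩ := hinj
        set Sg : Finset G := ((X ×ˢ X).filter (fun q => q.1⁻¹ * q.2 ∈ L)).image
          (fun q => q.1⁻¹ * q.2) with hSg
        have hSgmem : ∀ x ∈ X, ∀ y ∈ X, x⁻¹ * y ∈ L → x⁻¹ * y ∈ Sg := by
          intro x hx y hy hxy
          rw [hSg, Finset.mem_image]
          exact ⟨(x, y), by simp [hx, hy, hxy], rfl⟩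
        set H : Subgroup G := Subgroup.closure (Sg : Set G) with hH
        have hHL : H ≤ L := by
          rw [hH, Subgroup.closure_le]
          intro z hz
          rw [Finset.mem_coe, hSg, Finset.mem_image] at hz
          obtain ⟨q, hq, rfl⟩ := hz
          exact (Finset.mem_filter.mp hq).2
        have hHfg : H.FG := ⟨Sg, rfl⟩
        have hHne : H ≠ ⊥ := by
          intro hbot
          have h1 : x₀⁻¹ * y₀ ∈ H := Subgroup.subset_closure (hSgmem x₀ hx₀ y₀ hy₀ hxy₀)
          rw [hbot, Subgroup.mem_bot, inv_mul_eq_one] at h1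
          exact hne₀ h1
        obtain ⟨f, hf⟩ := hN H (hHL.trans hLN) hHfg hHne
        obtain ⟨H₁, c, d, hI⟩ := exists_indexP H f hf
        have hPH : PP A H (SX X H) := PP_stepA A X hHL
          (fun x hx y hy hxy => Subgroup.subset_closure (hSgmem x hx y hy hxy)) hPL
        have hPH₁ : PP A H₁ (SX X H) := by
          refine stepB hI A _ ?_ hPH
          rintro y hy ⟨x, hx, hxy⟩
          refine hy ⟨x, hx, ?_⟩
          have e : x⁻¹ * y = (x⁻¹ * (y * c⁻¹)) * c := by group
          rw [e]
          exact H.mul_mem hxy hI.cmem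
        have hPH₁' : PP A H₁ (SX X H₁) := hPH₁.mono_set (SX_mono X hI.le)
        refine ih H₁ ((hI.le.trans hHL).trans hLN) ?_ hPH₁'
        have hex : ∃ x ∈ X, ∃ y ∈ X, x⁻¹ * y ∈ L ∧ x⁻¹ * y ∉ H₁ := by
          by_contra hcon
          push Not at hcon
          have hle : H ≤ H₁ := by
            rw [hH, Subgroup.closure_le]
            intro z hz
            rw [Finset.mem_coe, hSg, Finset.mem_image] at hz
            obtain ⟨q, hq, rfl⟩ := hz
            rw [Finset.mem_filter, Finset.mem_product] at hq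
            exact hcon q.1 hq.1.1 q.2 hq.1.2 hq.2
          have h0 := hI.d_mem c (hle hI.cmem)
          rw [hI.one] at h0
          exact one_ne_zero h0
        obtain ⟨x, hx, y, hy, hxyL, hxyH₁⟩ := hex
        let κ : G ⧸ H₁ → G ⧸ L := Quotient.map' id (by
          intro a b hab
          rw [QuotientGroup.leftRel_apply] at hab ⊢
          exact hHL (hI.le hab))
        have hκ : (QuotientGroup.mk : G → G ⧸ L) = κ ∘ (QuotientGroup.mk : G → G ⧸ H₁) := by
          funext g
          rfl
        have himg : X.image (QuotientGroup.mk : G → G ⧸ L)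
            = (X.image (QuotientGroup.mk : G → G ⧸ H₁)).image κ := by
          rw [Finset.image_image, ← hκ]
        have hlt : (X.image (QuotientGroup.mk : G → G ⧸ L)).card
            < (X.image (QuotientGroup.mk : G → G ⧸ H₁)).card := by
          rw [himg]
          refine lt_of_le_of_ne Finset.card_image_le ?_
          intro heq
          have hinj := Finset.card_image_iff.mp heq
          have h1 : (QuotientGroup.mk x : G ⧸ H₁) = QuotientGroup.mk y := by
            refine hinj (Finset.mem_coe.mpr (Finset.mem_image_of_mem _ hx))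
              (Finset.mem_coe.mpr (Finset.mem_image_of_mem _ hy)) ?_
            show (QuotientGroup.mk x : G ⧸ L) = QuotientGroup.mk y
            exact QuotientGroup.eq.mpr hxyL
          exact hxyH₁ (QuotientGroup.eq.mp h1)
        have hle : (X.image (QuotientGroup.mk : G → G ⧸ H₁)).card ≤ X.card := Finset.card_image_le
        omega
  exact main _ N le_rfl le_rfl (hP.mono_set (Set.subset_univ _))

theorem matrix_df [CharP K p] (N : Subgroup G) [N.Normal] (hN : LocPInd p N)
    (n : Type*) [Fintype n] [DecidableEq n]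
    (hQ : ∀ A B : Matrix n n (MonoidAlgebra K (G ⧸ N)), A * B = 1 → B * A = 1)
    (A B : Matrix n n (MonoidAlgebra K G)) (hAB : A * B = 1) : B * A = 1 := by
  let φ : MonoidAlgebra K G →+* MonoidAlgebra K (G ⧸ N) :=
    MonoidAlgebra.mapDomainRingHom K (QuotientGroup.mk' N)
  have hφ : ∀ x, φ x = 0 ↔ Van N x := by
    intro x
    rw [van_iff_mapDomain, ← MonoidAlgebra.coeff_eq_zero]
    rfl
  have hAB' : A.map φ * B.map φ = 1 := by
    rw [← Matrix.map_mul, hAB, Matrix.map_one _ (map_zero φ) (map_one φ)]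
  have hBA' := hQ _ _ hAB'
  have hP : PP A N Set.univ := by
    intro v _ hV j
    rw [← hφ]
    have h1 : (A.map φ).mulVec (φ ∘ v) = 0 := by
      funext i
      rw [← RingHom.map_mulVec]
      exact (hφ _).mpr (hV i)
    have h2 : (φ ∘ v) = 0 := by
      calc (φ ∘ v) = (1 : Matrix n n (MonoidAlgebra K (G ⧸ N))).mulVec (φ ∘ v) := by
            rw [Matrix.one_mulVec]
        _ = 0 := by rw [← hBA', ← Matrix.mulVec_mulVec, h1, Matrix.mulVec_zero]
    exact congrFun h2 j
  have hz : A * (B * A - 1) = 0 := by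
    rw [mul_sub, ← mul_assoc, hAB, one_mul, mul_one, sub_self]
  have hcol : ∀ k, (fun j => (B * A - 1) j k) = 0 := by
    intro k
    refine core N hN A _ ?_ hP
    funext i
    have := congrFun (congrFun hz i) k
    rw [Matrix.mul_apply] at this
    exact this
  have : B * A - 1 = 0 := by
    refine Matrix.ext fun j k => ?_
    exact congrFun (hcol k) j
  exact sub_eq_zero.mp this

end StepB

end Vale.Agent.P194
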